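import Vale.Agent.P032.S5.H483.Irr

/-!
# P032: regions without walls (wild frame `Irr U T`)

* `rule_u` : a connected set `C` of points with at most three colours each, on which the colour `k` has no walls (for
  every point with the colours `k`, `j` there is a point at distance one whose palette is inside `{k, j}`) has the
  colour `k` everywhere (and only `k`) or nowhere;
* `mono_two` : the case of two colours; `region_false` : such a two-coloured set has diameter less than one.
-/

open Set Filter Topology Metric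

noncomputable section

namespace Vale.Agent.P032.H178

open Vale.Agent.P032.Six

variable {k : ℕ} {U : Fin k → Set ℂ} {T : ℂ → Set (Fin k)}

/-- a colour without walls on a connected set of points of order at most three -/
theorem rule_u (h : Irr U T) {C : Set ℂ} (hC : IsPreconnected C) {c : Fin k}
    (h3 : ∀ q ∈ C, c ∈ T q → (T q).ncard ≤ 3)
    (hp : ∀ q ∈ C, c ∈ T q → ∀ j ∈ T q, j ≠ c → ∃ y, dist y q = 1 ∧ T y ⊆ {c, j}) :
    (∀ q ∈ C, T q = {c}) ∨ ∀ q ∈ C, c ∉ T q := by
  have key : ∀ q ∈ C, c ∈ T q → T q = {c} := by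
    intro q hq hc
    by_contra hne
    obtain ⟨j, hj, hjc⟩ : ∃ j ∈ T q, j ≠ c := by
      by_contra hcon
      push Not at hcon
      exact hne (Subset.antisymm (fun m hm => hcon m hm) (singleton_subset_iff.2 hc))
    obtain ⟨y, hy, hyT⟩ := hp q hq hc j hj hjc
    exact h.not_sub hy (h3 q hq hc) (hyT.trans (by
      intro m hm
      rcases hm with rfl | hm
      · exact hc
      · rw [mem_singleton_iff.1 hm]; exact hj))
  by_cases h0 : ∃ p ∈ C, c ∈ T p
  · left
    obtain ⟨p, hp1, hp2⟩ := h0
    by_contra hcon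
    push Not at hcon
    obtain ⟨q, hq, hqT⟩ := hcon
    have hqc : c ∉ T q := fun hc => hqT (key q hq hc)
    -- the two closed sets
    have hA : IsClosed {x | c ∈ T x} := h.closed c
    have hB : IsClosed (⋃ j ∈ ({c}ᶜ : Set (Fin k)), {x | j ∈ T x}) :=
      (Set.toFinite _).isClosed_biUnion fun j _ => h.closed j
    have hcov : C ⊆ {x | c ∈ T x} ∪ ⋃ j ∈ ({c}ᶜ : Set (Fin k)), {x | j ∈ T x} := by
      intro x _
      obtain ⟨i, hi⟩ := h.ne x
      rcases eq_or_ne i c with rfl | hic
      · exact Or.inl hi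
      · exact Or.inr (mem_biUnion (show i ∈ ({c}ᶜ : Set (Fin k)) from hic) hi)
    obtain ⟨x, hxC, hxA, hxB⟩ := (isPreconnected_closed_iff.1 hC) _ _ hA hB hcov
      ⟨p, hp1, hp2⟩ (by
        obtain ⟨i, hi⟩ := h.ne q
        have hic : i ≠ c := by rintro rfl; exact hqc hi
        exact ⟨q, hq, mem_biUnion (show i ∈ ({c}ᶜ : Set (Fin k)) from hic) hi⟩)
    obtain ⟨j, hjc, hjx⟩ := mem_iUnion₂.1 hxB
    have hx1 : T x = {c} := key x hxC hxA
    have hjx' : j ∈ T x := hjx
    rw [hx1] at hjx'
    exact hjc hjx'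
  · right
    push Not at h0
    exact h0

/-- two colours, no walls: one colour -/
theorem mono_two (h : Irr U T) {M : Set ℂ} (hM : IsPreconnected M) {i j : Fin k} (hT : ∀ x ∈ M, T x ⊆ {i, j})
    (hp : ∀ q ∈ M, ∃ y, dist y q = 1 ∧ T y ⊆ {i, j}) : (∀ x ∈ M, T x = {i}) ∨ ∀ x ∈ M, T x = {j} := by
  have hc : ∀ q ∈ M, (T q).ncard ≤ 3 := fun q hq =>
    (Set.ncard_le_ncard (hT q hq) (Set.toFinite _)).trans ((Set.ncard_insert_le _ _).trans (by
      rw [Set.ncard_singleton]; norm_num))
  rcases rule_u h hM (c := i) (fun q hq _ => hc q hq) (fun q hq hi m hm hmi => by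
    obtain ⟨y, hy, hyT⟩ := hp q hq
    have hmj : m = j := by
      rcases hT q hq hm with h1 | h1
      · exact absurd h1 hmi
      · exact h1
    exact ⟨y, hy, hmj ▸ hyT⟩) with h1 | h1
  · exact Or.inl h1
  · right
    intro x hx
    obtain ⟨m, hm⟩ := h.ne x
    have h2 : ∀ n ∈ T x, n = j := by
      intro n hn
      rcases hT x hx hn with h3 | h3
      · exact absurd (h3 ▸ hn) (h1 x hx)
      · exact h3
    exact Subset.antisymm (fun n hn => h2 n hn) (singleton_subset_iff.2 (h2 m hm ▸ hm))

/-- a connected set with a point at distance at most one and a point at distance at least one from `q` has a point at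
distance one from `q` -/
theorem exists_dist_one {Z : Set ℂ} (hZ : IsPreconnected Z) {q a b : ℂ} (ha : a ∈ Z) (hb : b ∈ Z)
    (h1 : dist a q ≤ 1) (h2 : 1 ≤ dist b q) : ∃ y ∈ Z, dist y q = 1 := by
  have hc : ContinuousOn (fun x => dist x q) Z := by fun_prop
  exact hZ.intermediate_value ha hb hc ⟨h1, h2⟩

/-- **M-lemma.** A connected set of points with colours in `{i, j}`, every point of which has a point with colours in
`{i, j}` at distance one, has diameter less than one. -/
theorem region_false (h : Irr U T) {M : Set ℂ} (hM : IsPreconnected M) {i j : Fin k} (hT : ∀ x ∈ M, T x ⊆ {i, j})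
    (hp : ∀ q ∈ M, ∃ y, dist y q = 1 ∧ T y ⊆ {i, j}) {p q : ℂ} (hpM : p ∈ M) (hqM : q ∈ M) (hd : 1 ≤ dist q p) :
    False := by
  obtain ⟨y, hy, hy1⟩ := exists_dist_one hM hpM hqM (by rw [dist_self]; norm_num) hd
  have key : T y = T p := by
    rcases mono_two h hM hT hp with h1 | h1
    · rw [h1 y hy, h1 p hpM]
    · rw [h1 y hy, h1 p hpM]
  have h3 : (T p).ncard ≤ 3 :=
    (Set.ncard_le_ncard (hT p hpM) (Set.toFinite _)).trans ((Set.ncard_insert_le _ _).trans (by
      rw [Set.ncard_singleton]; norm_num))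
  exact h.not_sub hy1 h3 key.le

/-- the same with a finite family of witnesses: the points at distance one are supplied by connected sets `Z n` with
colours in `{i, j}` which contain a point near and a point far from `q` -/
theorem region_false' (h : Irr U T) {M : Set ℂ} (hM : IsPreconnected M) {i j : Fin k} (hT : ∀ x ∈ M, T x ⊆ {i, j})
    {ι : Type*} (Z : ι → Set ℂ) (hZ : ∀ n, IsPreconnected (Z n)) (hZT : ∀ n, ∀ x ∈ Z n, T x ⊆ {i, j})
    (hp : ∀ q ∈ M, ∃ n, ∃ a ∈ Z n, ∃ b ∈ Z n, dist a q ≤ 1 ∧ 1 ≤ dist b q) {p q : ℂ} (hpM : p ∈ M) (hqM : q ∈ M)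
    (hd : 1 ≤ dist q p) : False := by
  refine region_false h hM hT (fun x hx => ?_) hpM hqM hd
  obtain ⟨n, a, ha, b, hb, h1, h2⟩ := hp x hx
  obtain ⟨y, hy, hy1⟩ := exists_dist_one (hZ n) ha hb h1 h2
  exact ⟨y, hy1, hZT n y hy⟩

/-- a connected set of points with colours in `{i, j}` has diameter less than two -/
theorem diam_two (h : Irr U T) {M : Set ℂ} (hM : IsPreconnected M) {i j : Fin k} (hT : ∀ x ∈ M, T x ⊆ {i, j})
    {p q : ℂ} (hpM : p ∈ M) (hqM : q ∈ M) (hd : 2 ≤ dist q p) : False := by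
  refine region_false h hM hT (fun x hx => ?_) hpM hqM (by linarith)
  have h1 := dist_triangle q x p
  rcases le_total 1 (dist q x) with h2 | h2
  · obtain ⟨y, hy, hy1⟩ := exists_dist_one hM hx hqM (by rw [dist_self]; norm_num) h2
    exact ⟨y, hy1, hT y hy⟩
  · have h3 : 1 ≤ dist p x := by rw [dist_comm p x]; linarith
    obtain ⟨y, hy, hy1⟩ := exists_dist_one hM hx hpM (by rw [dist_self]; norm_num) h3
    exact ⟨y, hy1, hT y hy⟩

end Vale.Agent.P032.H178
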